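import Vale.Agent.P045.Baer.Geo.Cubic

/-!
Two disjoint Baer line sets in the projective plane over the field with `p ^ 2` elements.
-/

namespace Vale.P045.Baer.Geo

open Configuration Projectivization
open scoped LinearAlgebra.Projectivization Matrix

/-- The properties of the line set of a Baer subplane that are used downstream; the special
points are those on at least two lines of the set. -/
structure IsBaer {P L : Type*} [Membership P L] (p : ℕ) (A : Set L) : Prop where
  card_lines : A.ncard = p ^ 2 + p + 1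
  cover : ∀ z : P, ∃ a ∈ A, z ∈ a
  card_special : {z : P | {a ∈ A | z ∈ a}.Nontrivial}.ncard = p ^ 2 + p + 1
  deg_special : ∀ z : P, {a ∈ A | z ∈ a}.Nontrivial → {a ∈ A | z ∈ a}.ncard = p + 1
  special_off : ∀ l ∉ A, {z : P | z ∈ l ∧ {a ∈ A | z ∈ a}.Nontrivial}.Subsingleton
  special_on : ∀ l ∈ A, {z : P | z ∈ l ∧ {a ∈ A | z ∈ a}.Nontrivial}.ncard = p + 1

/-- Baer line sets are transported by collineations. -/
lemma IsBaer.transport {P L : Type*} [Membership P L] {p : ℕ} {A : Set L}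
    (hA : IsBaer (P := P) p A) (σP : P ≃ P) (σL : L ≃ L)
    (hσ : ∀ z l, z ∈ σL l ↔ σP z ∈ l) : IsBaer (P := P) p (σL '' A) := by
  have hd : ∀ z, {b ∈ σL '' A | z ∈ b} = σL '' {a ∈ A | σP z ∈ a} := by
    intro z; ext b
    simp only [Set.mem_ofPred_eq, Set.mem_image]
    constructor
    · rintro ⟨⟨a, ha, rfl⟩, hz⟩
      exact ⟨a, ⟨ha, (hσ z a).1 hz⟩, rfl⟩
    · rintro ⟨a, ⟨ha, hz⟩, rfl⟩
      exact ⟨⟨a, ha, rfl⟩, (hσ z a).2 hz⟩
  have hnt : ∀ z, {b ∈ σL '' A | z ∈ b}.Nontrivial ↔ {a ∈ A | σP z ∈ a}.Nontrivial := by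
    intro z; rw [hd]
    exact ⟨fun h => Set.nontrivial_of_image σL _ h, fun h => h.image σL.injective⟩
  have hs : ∀ l, {z : P | z ∈ σL l ∧ {b ∈ σL '' A | z ∈ b}.Nontrivial} =
      σP.symm '' {z : P | z ∈ l ∧ {a ∈ A | z ∈ a}.Nontrivial} := by
    intro l; ext z
    rw [Set.mem_image_equiv, Equiv.symm_symm]
    simp only [Set.mem_ofPred_eq]
    rw [hσ, hnt]
  constructor
  · rw [Set.ncard_image_of_injective _ σL.injective, hA.card_lines]
  · intro z
    obtain ⟨a, ha, hz⟩ := hA.cover (σP z)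
    exact ⟨σL a, ⟨a, ha, rfl⟩, (hσ z a).2 hz⟩
  · rw [show {z : P | {b ∈ σL '' A | z ∈ b}.Nontrivial} =
        σP.symm '' {z : P | {a ∈ A | z ∈ a}.Nontrivial} by
      ext z
      rw [Set.mem_image_equiv, Equiv.symm_symm]
      exact hnt z,
      Set.ncard_image_of_injective _ σP.symm.injective, hA.card_special]
  · intro z hz
    rw [hd, Set.ncard_image_of_injective _ σL.injective, hA.deg_special _ ((hnt z).1 hz)]
  · intro l hl
    obtain ⟨l, rfl⟩ := σL.surjective l
    rw [hs]
    exact (hA.special_off l (fun h => hl ⟨l, h, rfl⟩)).image _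
  · rintro _ ⟨l, hl, rfl⟩
    rw [hs, Set.ncard_image_of_injective _ σP.symm.injective, hA.special_on l hl]

lemma order_eq (k : Type*) [Field k] [Finite k] [DecidableEq k] :
    ProjectivePlane.order (ℙ k (Fin 3 → k)) (ℙ k (Fin 3 → k)) = Nat.card k := by
  have := Fintype.ofFinite (ℙ k (Fin 3 → k))
  have h1 := ProjectivePlane.card_points (ℙ k (Fin 3 → k)) (ℙ k (Fin 3 → k))
  rw [← Nat.card_eq_fintype_card, card_of_finrank k _ (Module.finrank_fin_fun k),
    Finset.sum_range_succ, Finset.sum_range_succ, Finset.sum_range_one] at h1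
  nlinarith

variable {p : ℕ} [hp : Fact p.Prime] {K : Type*} [Field K] [Algebra (ZMod p) K]

/-- Coordinatewise inclusion of the prime field. -/
def embL : (Fin 3 → ZMod p) →ₛₗ[algebraMap (ZMod p) K] (Fin 3 → K) where
  toFun v i := algebraMap (ZMod p) K (v i)
  map_add' u v := by ext i; simp
  map_smul' a v := by ext i; simp

@[simp] lemma embL_apply (v : Fin 3 → ZMod p) (i : Fin 3) :
    embL (K := K) v i = algebraMap (ZMod p) K (v i) := rfl

lemma embL_injective : Function.Injective (embL (p := p) (K := K)) := fun _ _ h =>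
  funext fun i => (algebraMap (ZMod p) K).injective (congrFun h i)

/-- The inclusion of the plane over the prime field. -/
def emb : ℙ (ZMod p) (Fin 3 → ZMod p) → ℙ K (Fin 3 → K) :=
  Projectivization.map embL embL_injective

lemma emb_injective : Function.Injective (emb (p := p) (K := K)) := by
  intro u v h
  induction u with | h u hu =>
  induction v with | h v hv =>
  rw [emb, map_mk, map_mk, mk_eq_mk_iff'] at h
  obtain ⟨c, hc⟩ := h
  obtain ⟨i, hi⟩ : ∃ i, v i ≠ 0 := Function.ne_iff.1 hv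
  refine (mk_eq_mk_iff' _ _ _ _ _).2 ⟨u i * (v i)⁻¹, embL_injective (K := K) ?_⟩
  have hi' : algebraMap (ZMod p) K (v i) ≠ 0 := by simpa using hi
  have hci : c = algebraMap (ZMod p) K (u i * (v i)⁻¹) := by
    have := congrFun hc i
    rw [Pi.smul_apply, embL_apply, embL_apply, smul_eq_mul] at this
    rw [map_mul, map_inv₀, ← this, mul_inv_cancel_right₀ hi']
  rw [map_smulₛₗ, ← hci, hc]

lemma emb_mem_emb {u v : ℙ (ZMod p) (Fin 3 → ZMod p)} :
    (emb u : ℙ K (Fin 3 → K)) ∈ (emb v : ℙ K (Fin 3 → K)) ↔ u ∈ v := by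
  induction u with | h u hu =>
  induction v with | h v hv =>
  rw [emb, map_mk, map_mk]
  change dotProduct _ _ = 0 ↔ dotProduct u v = 0
  rw [show dotProduct (embL (K := K) u) (embL v) = algebraMap (ZMod p) K (dotProduct u v) by
    simp [dotProduct]]
  exact map_eq_zero _

lemma isBaer_range_emb (hK : Nat.card K = p ^ 2) :
    IsBaer (P := ℙ K (Fin 3 → K)) p (Set.range (emb (p := p) (K := K))) := by
  classical
  have : Finite K := Nat.finite_of_card_ne_zero (hK ▸ pow_ne_zero _ hp.out.ne_zero)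
  have hord := order_eq (ZMod p)
  rw [Nat.card_zmod] at hord
  have hcard : (Set.range (emb (p := p) (K := K))).ncard = p ^ 2 + p + 1 := by
    rw [← Nat.card_coe_set_eq, Nat.card_range_of_injective emb_injective,
      card_of_finrank (ZMod p) _ (Module.finrank_fin_fun _), Nat.card_zmod,
      Finset.sum_range_succ, Finset.sum_range_succ, Finset.sum_range_one]
    ring
  -- two lines of the subplane meet in a point of the subplane
  have hmeet : ∀ z : ℙ K (Fin 3 → K), {a ∈ Set.range (emb (p := p)) | z ∈ a}.Nontrivial →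
      z ∈ Set.range (emb (p := p)) := by
    rintro z ⟨_, ⟨⟨u, rfl⟩, hu⟩, _, ⟨⟨v, rfl⟩, hv⟩, huv⟩
    have huv' : u ≠ v := fun h => huv (h ▸ rfl)
    refine ⟨HasPoints.mkPoint (P := ℙ (ZMod p) (Fin 3 → ZMod p)) huv', ?_⟩
    obtain ⟨h1, h2⟩ := HasPoints.mkPoint_ax (P := ℙ (ZMod p) (Fin 3 → ZMod p)) huv'
    exact ((Nondegenerate.eq_or_eq (emb_mem_emb.2 h1) hu (emb_mem_emb.2 h2) hv).resolve_right huv)
  have hdeg : ∀ x, {a ∈ Set.range (emb (p := p) (K := K)) | emb (p := p) x ∈ a}.ncard = p + 1 := by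
    intro x
    rw [show {a ∈ Set.range (emb (p := p) (K := K)) | emb x ∈ a} = emb '' {l | x ∈ l} by
        ext a
        constructor
        · rintro ⟨⟨l, rfl⟩, h⟩; exact ⟨l, emb_mem_emb.1 h, rfl⟩
        · rintro ⟨l, h, rfl⟩; exact ⟨⟨l, rfl⟩, emb_mem_emb.2 h⟩,
      Set.ncard_image_of_injective _ emb_injective, ← Nat.card_coe_set_eq]
    exact (ProjectivePlane.lineCount_eq (L := ℙ (ZMod p) (Fin 3 → ZMod p)) x).trans (by rw [hord])
  have hnt : ∀ z : ℙ K (Fin 3 → K), {a ∈ Set.range (emb (p := p)) | z ∈ a}.Nontrivial ↔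
      z ∈ Set.range (emb (p := p)) := by
    refine fun z => ⟨hmeet z, ?_⟩
    rintro ⟨x, rfl⟩
    rw [← Set.one_lt_ncard_iff_nontrivial, hdeg]
    have := hp.out.one_lt
    omega
  refine ⟨hcard, fun z => ?_, ?_, ?_, ?_, ?_⟩
  · induction z with | h z hz =>
    have : ¬ Function.Injective fun v : Fin 3 → ZMod p => dotProduct z (embL v) := by
      intro hinj
      have := Nat.card_le_card_of_injective _ hinj
      rw [Nat.card_fun, Nat.card_zmod, hK, Nat.card_fin] at this
      exact absurd this (not_le.2 (Nat.pow_lt_pow_right hp.out.one_lt (by norm_num)))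
    obtain ⟨u, v, huv, hne⟩ := Function.not_injective_iff.1 this
    refine ⟨emb (mk _ (u - v) (sub_ne_zero.2 hne)), ⟨_, rfl⟩, ?_⟩
    rw [emb, map_mk]
    change dotProduct z (embL (u - v)) = 0
    rw [map_sub, dotProduct_sub, sub_eq_zero]
    exact huv
  · rw [show {z : ℙ K (Fin 3 → K) | {a ∈ Set.range (emb (p := p)) | z ∈ a}.Nontrivial} =
        Set.range (emb (p := p)) from Set.ext hnt]
    exact hcard
  · intro z hz
    obtain ⟨x, rfl⟩ := hmeet z hz
    exact hdeg x
  · rintro l hl z ⟨hzl, hz⟩ z' ⟨hzl', hz'⟩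
    obtain ⟨x, rfl⟩ := hmeet z hz
    obtain ⟨y, rfl⟩ := hmeet z' hz'
    by_contra hne
    have hxy : x ≠ y := fun h => hne (h ▸ rfl)
    obtain ⟨h1, h2⟩ := HasLines.mkLine_ax (L := ℙ (ZMod p) (Fin 3 → ZMod p)) hxy
    rcases Nondegenerate.eq_or_eq hzl hzl' (emb_mem_emb.2 h1) (emb_mem_emb.2 h2) with h | h
    · exact hne h
    · exact hl ⟨_, h.symm⟩
  · rintro _ ⟨l, rfl⟩
    rw [show {z : ℙ K (Fin 3 → K) | z ∈ (emb l : ℙ K (Fin 3 → K)) ∧
        {a ∈ Set.range (emb (p := p)) | z ∈ a}.Nontrivial} = emb '' {x | x ∈ l} by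
        ext z
        simp only [Set.mem_ofPred_eq, hnt]
        constructor
        · rintro ⟨h, x, rfl⟩; exact ⟨x, emb_mem_emb.1 h, rfl⟩
        · rintro ⟨x, h, rfl⟩; exact ⟨emb_mem_emb.2 h, x, rfl⟩,
      Set.ncard_image_of_injective _ emb_injective, ← Nat.card_coe_set_eq]
    exact (ProjectivePlane.pointCount_eq (P := ℙ (ZMod p) (Fin 3 → ZMod p)) l).trans (by rw [hord])

/-- The linear map `I + w C`, with `C` the companion matrix of `X ^ 3 - X - c`. -/
def twist (w c : K) : (Fin 3 → K) →ₗ[K] (Fin 3 → K) where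
  toFun v := ![v 0 + w * (c * v 2), v 1 + w * (v 0 + v 2), v 2 + w * v 1]
  map_add' u v := by ext i; fin_cases i <;> simp <;> ring
  map_smul' a v := by ext i; fin_cases i <;> simp <;> ring

/-- The transpose of `twist`. -/
def twistT (w c : K) : (Fin 3 → K) →ₗ[K] (Fin 3 → K) where
  toFun z := ![z 0 + w * z 1, z 1 + w * z 2, z 2 + w * (c * z 0 + z 1)]
  map_add' u v := by ext i; fin_cases i <;> simp <;> ring
  map_smul' a v := by ext i; fin_cases i <;> simp <;> ring

lemma dot_twist (w c : K) (z v : Fin 3 → K) :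
    dotProduct z (twist w c v) = dotProduct (twistT w c z) v := by
  simp [dotProduct, Fin.sum_univ_three, twist, twistT]
  ring

section
variable {w c : K}

lemma twist_injective (h : 1 + c * w ^ 3 - w ^ 2 ≠ 0) : Function.Injective (twist w c) := by
  rw [← LinearMap.ker_eq_bot, LinearMap.ker_eq_bot']
  intro v hv
  have e0 : v 0 + w * (c * v 2) = 0 := congrFun hv 0
  have e1 : v 1 + w * (v 0 + v 2) = 0 := congrFun hv 1
  have e2 : v 2 + w * v 1 = 0 := congrFun hv 2
  have h1 : v 1 = 0 := by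
    refine (mul_eq_zero.1 (show v 1 * (1 + c * w ^ 3 - w ^ 2) = 0 by
      linear_combination e1 - w * e0 + (w ^ 2 * c - w) * e2)).resolve_right h
  have h2 : v 2 = 0 := by linear_combination e2 - w * h1
  have h0 : v 0 = 0 := by linear_combination e0 - w * c * h2
  ext i; fin_cases i <;> assumption

lemma twistT_injective (h : 1 + c * w ^ 3 - w ^ 2 ≠ 0) : Function.Injective (twistT w c) := by
  rw [← LinearMap.ker_eq_bot, LinearMap.ker_eq_bot']
  intro v hv
  have e0 : v 0 + w * v 1 = 0 := congrFun hv 0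
  have e1 : v 1 + w * v 2 = 0 := congrFun hv 1
  have e2 : v 2 + w * (c * v 0 + v 1) = 0 := congrFun hv 2
  have h2 : v 2 = 0 := by
    refine (mul_eq_zero.1 (show v 2 * (1 + c * w ^ 3 - w ^ 2) = 0 by
      linear_combination e2 - w * c * e0 + (w ^ 2 * c - w) * e1)).resolve_right h
  have h1 : v 1 = 0 := by linear_combination e1 - w * h2
  have h0 : v 0 = 0 := by linear_combination e0 - w * h1
  ext i; fin_cases i <;> assumption

end

/-- The projective plane over a field with `p ^ 2` elements carries two disjoint Baer line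
sets. -/
theorem exists_disjoint_baer (hK : Nat.card K = p ^ 2) :
    ∃ A B : Set (ℙ K (Fin 3 → K)), IsBaer (P := ℙ K (Fin 3 → K)) p A ∧
      IsBaer (P := ℙ K (Fin 3 → K)) p B ∧ Disjoint A B := by
  have : Finite K := Nat.finite_of_card_ne_zero (hK ▸ pow_ne_zero _ hp.out.ne_zero)
  obtain ⟨c, hc⟩ := exists_cubic_rootless p
  obtain ⟨w, hw⟩ := exists_not_range (p := p) hK
  set g := algebraMap (ZMod p) K
  have hw0 : w ≠ 0 := fun h => hw ⟨0, by rw [map_zero, h]⟩
  have hne : 1 + g c * w ^ 3 - w ^ 2 ≠ 0 := by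
    intro h
    refine not_root hK hc (-w⁻¹) ?_
    field_simp
    linear_combination -h
  have hT := twist_injective hne
  have hS := twistT_injective hne
  let σL := Equiv.ofBijective _ (Finite.injective_iff_bijective.1
    (Projectivization.map_injective (τ := RingHom.id K) (twist w (g c)) hT))
  let σP := Equiv.ofBijective _ (Finite.injective_iff_bijective.1
    (Projectivization.map_injective (τ := RingHom.id K) (twistT w (g c)) hS))
  have hσ : ∀ z l : ℙ K (Fin 3 → K), z ∈ σL l ↔ σP z ∈ l := by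
    intro z l
    induction z with | h z hz =>
    induction l with | h l hl =>
    show dotProduct z (twist w (g c) l) = 0 ↔ dotProduct (twistT w (g c) z) l = 0
    rw [dot_twist]
  refine ⟨_, _, isBaer_range_emb hK, (isBaer_range_emb hK).transport σP σL hσ, ?_⟩
  rw [Set.disjoint_left]
  rintro _ ⟨u, rfl⟩ ⟨_, ⟨v, rfl⟩, h⟩
  induction u with | h u hu =>
  induction v with | h v hv =>
  change Projectivization.map _ hT (emb (mk _ v hv)) = emb (mk _ u hu) at h
  simp only [emb, map_mk, mk_eq_mk_iff'] at h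
  obtain ⟨t, ht⟩ := h
  -- write the scalar in the basis `1`, `w`
  obtain ⟨a, b, rfl⟩ : ∃ a b, t = g a + w * g b := by
    have hinj : Function.Injective fun ab : ZMod p × ZMod p => g ab.1 + w * g ab.2 := by
      intro x y hxy
      obtain ⟨h1, h2⟩ := coord_eq_zero hw (a := x.1 - y.1) (b := x.2 - y.2) (by
        simp only [map_sub]; linear_combination hxy)
      exact Prod.ext (sub_eq_zero.1 h1) (sub_eq_zero.1 h2)
    have := Fintype.ofFinite K
    have hb := (Fintype.bijective_iff_injective_and_card _).2 ⟨hinj, by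
      rw [← Nat.card_eq_fintype_card, ← Nat.card_eq_fintype_card, hK, Nat.card_prod,
        Nat.card_zmod, sq]⟩
    obtain ⟨⟨a, b⟩, hab⟩ := hb.2 t
    exact ⟨a, b, hab.symm⟩
  have hcoef : ∀ (i : Fin 3) (Cv : ZMod p), twist w (g c) (embL v) i = g (v i) + w * g Cv →
      v i = a * u i ∧ Cv = b * u i := by
    intro i Cv hi
    have h1 := congrFun ht i
    rw [Pi.smul_apply, smul_eq_mul, hi] at h1
    obtain ⟨h2, h3⟩ := coord_eq_zero hw (a := v i - a * u i) (b := Cv - b * u i) (by
      simp only [embL_apply] at h1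
      simp only [map_sub, map_mul]; linear_combination -h1)
    exact ⟨sub_eq_zero.1 h2, sub_eq_zero.1 h3⟩
  obtain ⟨a0, b0⟩ := hcoef 0 (c * v 2) (by simp [twist, g])
  obtain ⟨a1, b1⟩ := hcoef 1 (v 0 + v 2) (by simp [twist, g])
  obtain ⟨a2, b2⟩ := hcoef 2 (v 1) (by simp [twist, g])
  apply hv
  by_cases ha : a = 0
  · ext i; fin_cases i <;> simp [a0, a1, a2, ha]
  have hcub : v 2 * ((b * a⁻¹) ^ 3 - b * a⁻¹ - c) = 0 := by
    have e1 : v 1 = b * a⁻¹ * v 2 := by rw [b2, a2]; field_simp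
    have e2 : v 0 + v 2 = b * a⁻¹ * v 1 := by rw [b1, a1]; field_simp
    have e3 : c * v 2 = b * a⁻¹ * v 0 := by rw [b0, a0]; field_simp
    linear_combination (-(b * a⁻¹) ^ 2) * e1 - (b * a⁻¹) * e2 - e3
  have hv2 : v 2 = 0 := (mul_eq_zero.1 hcub).resolve_right (sub_ne_zero.2 (hc _))
  have hu2 : u 2 = 0 := by
    rw [a2] at hv2
    exact (mul_eq_zero.1 hv2).resolve_left ha
  have hv1 : v 1 = 0 := by rw [b2, hu2, mul_zero]
  have hu1 : u 1 = 0 := by
    rw [a1] at hv1
    exact (mul_eq_zero.1 hv1).resolve_left ha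
  have hv0 : v 0 = 0 := by simpa [hv2, hu1] using b1
  ext i; fin_cases i <;> simp [hv0, hv1, hv2]

end Vale.P045.Baer.Geo
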