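import Mathlib

/-!
Two facts about the field with `p ^ 2` elements used for the pair of Baer subplanes:
elements fixed by Frobenius lie in the prime field, and an irreducible cubic
`X ^ 3 - X - c` over the prime field has no root in the quadratic extension.
-/

namespace Vale.P045.Baer.Geo

variable {p : ℕ} [hp : Fact p.Prime] {K : Type*} [Field K] [Algebra (ZMod p) K]

lemma exists_cubic_rootless (p : ℕ) [Fact p.Prime] : ∃ c : ZMod p, ∀ x, x ^ 3 - x ≠ c := by
  by_contra h
  push Not at h
  have hinj := Finite.injective_iff_surjective.2 (fun c => h c : Function.Surjective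
    fun x : ZMod p => x ^ 3 - x)
  exact one_ne_zero (hinj (a₁ := (1 : ZMod p)) (a₂ := 0) (by simp))

lemma mem_range_of_pow_eq {x : K} (h : x ^ p = x) : x ∈ Set.range (algebraMap (ZMod p) K) := by
  have : CharP K p := charP_of_injective_algebraMap (algebraMap (ZMod p) K).injective p
  have hb : x ∈ (⊥ : Subfield K) := (Subfield.mem_bot_iff_pow_eq_self (F := K) (p := p)).2 h
  exact (bot_le : (⊥ : Subfield K) ≤ (algebraMap (ZMod p) K).fieldRange) hb

lemma not_root (hK : Nat.card K = p ^ 2) {c : ZMod p} (hc : ∀ x, x ^ 3 - x ≠ c) (m : K) :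
    m ^ 3 - m ≠ algebraMap (ZMod p) K c := by
  intro hm
  have : CharP K p := charP_of_injective_algebraMap (algebraMap (ZMod p) K).injective p
  have : Finite K := Nat.finite_of_card_ne_zero (hK ▸ pow_ne_zero _ hp.out.ne_zero)
  have : Fintype K := Fintype.ofFinite K
  set g := algebraMap (ZMod p) K with hg
  set n := m ^ p with hn
  have hnn : n ^ p = m := by
    rw [hn, ← pow_mul]
    have := FiniteField.pow_card m
    rwa [← Nat.card_eq_fintype_card, hK, pow_two] at this
  have hgc : (g c) ^ p = g c := by rw [← map_pow, ZMod.pow_card]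
  have hn3 : n ^ 3 - n = g c := by
    have := congrArg (frobenius K p) hm
    simp only [map_sub, map_pow] at this
    simpa [frobenius_def, hgc, ← hn] using this
  have key : ∀ r : K, r ^ p = r → r ^ 3 - r ≠ g c := by
    intro r hr hr3
    obtain ⟨y, rfl⟩ := mem_range_of_pow_eq hr
    exact hc y (g.injective (by simpa using hr3))
  by_cases hmn : m = n
  · exact key m (by rw [← hn, ← hmn]) hm
  have hq : m ^ 2 + m * n + n ^ 2 - 1 = 0 := by
    have : (m - n) * (m ^ 2 + m * n + n ^ 2 - 1) = 0 := by linear_combination hm - hn3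
    exact (mul_eq_zero.1 this).resolve_left (sub_ne_zero.2 hmn)
  refine key (-(m + n)) ?_ ?_
  · have : frobenius K p (-(m + n)) = -(m + n) := by
      rw [map_neg, map_add, frobenius_def, frobenius_def, ← hn, hnn, add_comm]
    simpa [frobenius_def] using this
  · linear_combination hm - (2 * m + n) * hq

lemma exists_not_range (hK : Nat.card K = p ^ 2) :
    ∃ w : K, w ∉ Set.range (algebraMap (ZMod p) K) := by
  by_contra h
  push Not at h
  have hle := Nat.card_le_card_of_surjective _ (fun w => h w :
    Function.Surjective (algebraMap (ZMod p) K))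
  rw [hK, Nat.card_zmod] at hle
  exact absurd hle (not_le.2 (by simpa using Nat.pow_lt_pow_right hp.out.one_lt (show 1 < 2 by norm_num)))

/-- Linear independence of `1` and `w` over the prime field. -/
lemma coord_eq_zero {w : K} (hw : w ∉ Set.range (algebraMap (ZMod p) K)) {a b : ZMod p}
    (h : algebraMap (ZMod p) K a + w * algebraMap (ZMod p) K b = 0) : a = 0 ∧ b = 0 := by
  by_cases hb : b = 0
  · subst hb
    simpa using h
  · exfalso
    apply hw
    refine ⟨-a * b⁻¹, ?_⟩
    have hb' : algebraMap (ZMod p) K b ≠ 0 := by simpa using hb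
    rw [map_mul, map_neg, map_inv₀]
    field_simp
    linear_combination -h

end Vale.P045.Baer.Geo
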